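import Vale.Agent.P050H.Host

/-!
# P050: Sidorenko's inequality for every bipartite graph and log-supermodular hosts
-/

open MeasureTheory

namespace Vale.Agent.Results.P050.LatticeHosts

/-- `w` is nonnegative and log-supermodular on the lattice `L`
(for `L = X × Y` the lattice operations are componentwise). -/
def LogSupermodular {L : Type*} [Lattice L] (w : L → ℝ) : Prop :=
  (∀ x, 0 ≤ w x) ∧ ∀ x x', w x * w x' ≤ w (x ⊓ x') * w (x ⊔ x')

/-- `W u v = K (α u) (β v)` with `K` log-supermodular on a product of two finite distributive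
lattices and `α`, `β` of log-supermodular law. -/
def FiniteHost {Ω : Type} [MeasurableSpace Ω] (P : Measure Ω) (W : Ω → Ω → ℝ) : Prop :=
  ∃ (X Y : Type) (_ : DistribLattice X) (_ : Fintype X) (_ : DistribLattice Y) (_ : Fintype Y)
    (α : Ω → X) (β : Ω → Y) (K : X → Y → ℝ),
    (∀ x, MeasurableSet (α ⁻¹' {x})) ∧ (∀ y, MeasurableSet (β ⁻¹' {y})) ∧
    LogSupermodular (fun x => P.real (α ⁻¹' {x})) ∧
    LogSupermodular (fun y => P.real (β ⁻¹' {y})) ∧
    LogSupermodular (Function.uncurry K) ∧ ∀ u v, W u v = K (α u) (β v)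

/-- `W u v = K (α u) (β v)` with `K` bounded, measurable and log-supermodular on a product
`S ^ m × R ^ k` of powers of linear orders and `α`, `β` with independent coordinates. -/
def ProductHost {Ω : Type} [MeasurableSpace Ω] (P : Measure Ω) (W : Ω → Ω → ℝ) : Prop :=
  ∃ (S R : Type) (_ : LinearOrder S) (_ : MeasurableSpace S) (_ : LinearOrder R)
    (_ : MeasurableSpace R) (m k : ℕ) (μ : Fin m → Measure S) (ν : Fin k → Measure R)
    (α : Ω → Fin m → S) (β : Ω → Fin k → R) (K : (Fin m → S) → (Fin k → R) → ℝ) (C : ℝ),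
    (∀ i, IsProbabilityMeasure (μ i)) ∧ (∀ i, IsProbabilityMeasure (ν i)) ∧
    Measurable α ∧ Measurable β ∧ P.map α = Measure.pi μ ∧ P.map β = Measure.pi ν ∧
    Measurable (Function.uncurry K) ∧ (∀ x y, K x y ≤ C) ∧
    LogSupermodular (Function.uncurry K) ∧ ∀ u v, W u v = K (α u) (β v)

/-- The graph `G` is given by a sublattice `R` of a product of two finite distributive lattices:
`u v` is an edge iff `(α u, β v) ∈ R`, the fibres of `α` and `β` having log-supermodular sizes. -/
def LatticeGraph {U : Type} (G : SimpleGraph U) : Prop :=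
  ∃ (X Y : Type) (_ : DistribLattice X) (_ : Fintype X) (_ : DistribLattice Y) (_ : Fintype Y)
    (α : U → X) (β : U → Y) (R : X → Y → Prop),
    LogSupermodular (fun x => (Nat.card {u // α u = x} : ℝ)) ∧
    LogSupermodular (fun y => (Nat.card {u // β u = y} : ℝ)) ∧
    (∀ x x' y y', R x y → R x' y' → R (x ⊓ x') (y ⊓ y') ∧ R (x ⊔ x') (y ⊔ y')) ∧
    ∀ u v, G.Adj u v ↔ R (α u) (β v)

/-- The homomorphism density `t(H, W) = ∫ ∏_{uv ∈ E(H)} W (x_u, x_v) dP^V(x)`. -/
noncomputable def density {V : Type*} [Fintype V] [DecidableEq V] (H : SimpleGraph V)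
    [DecidableRel H.Adj] {Ω : Type} [MeasurableSpace Ω] (P : Measure Ω) (W : Ω → Ω → ℝ)
    (hs : ∀ u v, W u v = W v u) : ℝ :=
  ∫ x : V → Ω, ∏ e ∈ H.edgeFinset,
    Sym2.lift ⟨fun u v => W (x u) (x v), fun _ _ => hs _ _⟩ e ∂(Measure.pi fun _ => P)

/-- For every bipartite graph `H`: `t(H, W) ≥ t(K₂, W) ^ |E(H)|` for all symmetric kernels `W`
on probability spaces that are finite hosts or product hosts, and
`t(H, G) ≥ p(G) ^ |E(H)|` for all lattice graphs `G`. -/
theorem result {V : Type*} [Fintype V] [DecidableEq V] (H : SimpleGraph V) [DecidableRel H.Adj]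
    (hH : H.Colorable 2) :
    (∀ (Ω : Type) [MeasurableSpace Ω] (P : Measure Ω) [IsProbabilityMeasure P]
      (W : Ω → Ω → ℝ) (hs : ∀ u v, W u v = W v u), FiniteHost P W ∨ ProductHost P W →
      (∫ z, W z.1 z.2 ∂(P.prod P)) ^ H.edgeFinset.card ≤ density H P W hs) ∧
    (∀ (U : Type) [Fintype U] [Nonempty U] (G : SimpleGraph U) [DecidableRel G.Adj],
      LatticeGraph G →
      (2 * (G.edgeFinset.card : ℝ) / (Fintype.card U : ℝ) ^ 2) ^ H.edgeFinset.card ≤
        (Nat.card (H →g G) : ℝ) / (Fintype.card U : ℝ) ^ Fintype.card V) := by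
  obtain ⟨C⟩ := hH
  set c : V → Bool := fun v => decide (C v = 0) with hc0
  have hc : ∀ u v, H.Adj u v → c u ≠ c v := by
    intro u v h he
    refine C.valid h ?_
    have h1 : (C u = 0) ↔ (C v = 0) := by
      simpa [hc0, decide_eq_decide] using he
    revert h1
    generalize C u = a
    generalize C v = b
    fin_cases a <;> fin_cases b <;> simp
  refine ⟨?_, ?_⟩
  · intro Ω _ P _ W hs hW
    rcases hW with h | h
    · obtain ⟨X, Y, _, _, _, _, α, β, K, hα, hβ, hαl, hβl, hK, hW⟩ := h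
      exact Vale.Agent.P050.main_fin H P c hc W hs α β K hα hβ hαl.2 hβl.2
        (fun x y => hK.1 (x, y)) (fun x x' y y' => hK.2 (x, y) (x', y')) hW
    · obtain ⟨S, R, _, _, _, _, m, k, μ, ν, α, β, K, C, hμ, hν, hα, hβ, hαμ, hβν, hm, hC, hK,
        hW⟩ := h
      exact Vale.Agent.P050.main_real H P c hc W hs μ ν hμ hν α β K C hα hβ hαμ hβν hm
        (fun x y => hK.1 (x, y)) hC (fun x x' y y' => hK.2 (x, y) (x', y')) hW
  · intro U _ _ G _ hG
    obtain ⟨X, Y, _, _, _, _, α, β, R, hα, hβ, hR, hG⟩ := hG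
    exact Vale.Agent.P050.main_graph H c hc G α β R hα.2 hβ.2 hR hG

end Vale.Agent.Results.P050.LatticeHosts
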