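import Vale.Agent.P050.T.KGraph

/-!
# P050: Sidorenko's inequality for every bipartite graph and every totally positive kernel
-/

open MeasureTheory

namespace Vale.Agent.Results.P050.TotallyPositive

open Vale.Agent.P050.T

/-- Let `H` be any bipartite graph, `μ` a probability measure on a linearly ordered measurable space
(for example Lebesgue measure on `[0,1]`), and `W` a bounded measurable symmetric kernel that is
totally positive of order two or satisfies the reverse rule. Then `t(H, W) ≥ (∫ W) ^ |E(H)|`. -/
theorem result {V : Type*} [Fintype V] [DecidableEq V] (H : SimpleGraph V) [DecidableRel H.Adj]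
    (hH : H.Colorable 2) {α : Type*} [LinearOrder α] [MeasurableSpace α] (μ : Measure α)
    [IsProbabilityMeasure μ] (W : α → α → ℝ) (hm : Measurable (Function.uncurry W))
    (hs : ∀ x y, W x y = W y x) (C : ℝ) (hC : ∀ x y, W x y ≤ C)
    (hW : TotallyPositive W ∨ ReverseRule W) :
    (∫ z, W z.1 z.2 ∂(μ.prod μ)) ^ H.edgeFinset.card ≤
      ∫ x : V → α, edgeProd H W hs x ∂(Measure.pi fun _ => μ) := by
  have hne : Nonempty α := by
    by_contra h
    rw [not_nonempty_iff] at h
    have h1 : μ Set.univ = 1 := measure_univ
    rw [Set.univ_eq_empty_iff.2 h, measure_empty] at h1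
    exact zero_ne_one h1
  obtain ⟨a⟩ := hne
  have h0 : 0 ≤ C := by
    rcases hW with h | h
    · exact (h.1 a a).trans (hC a a)
    · exact (h.1 a a).trans (hC a a)
  exact kernel_graph H hH hm hs hC h0 hW

end Vale.Agent.Results.P050.TotallyPositive
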